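import Mathlib
import Crest.Agent.Helper3.Shuffle.Conv

/-!
helper74: the TYPICAL-DENSITY ("whp") form of the end game for S0222 (Thorp shuffle), generic part.

`STATE.md` (R-b): if the law after `s` shuffles splits as `ν₁ + ν₂` with `ν₁, ν₂ ≥ 0`, and `D`
further shuffles contract the squared `L²` norm of mean-zero functions by `lam`, then after
`s + J * D` shuffles

    tvFromUniform ≤ ∑ ν₂ + (1/2) * sqrt (lam ^ J * (N * ∑ ν₁ ^ 2)).

So a bound on the density of the law off a set of small probability (or for a sub-law obtained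
by conditioning on auxiliary randomness and truncating) is as good as a chi-square bound.
Nothing here is specific to the Thorp shuffle beyond helper3's `law` / `opL`.
-/

set_option autoImplicit false

namespace Crest.Agent.Helper74.Shuffle

open Crest.ProbabilityR.Shuffle Crest.Agent.Helper13.Shuffle Crest.Agent.Helper3.Shuffle

/-- `opL` is additive. -/
theorem opL_add_fun (m t : ℕ) (φ ψ : Equiv.Perm (Fin (2 * m)) → ℝ) :
    opL m t (fun g => φ g + ψ g) = fun g => opL m t φ g + opL m t ψ g := by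
  funext g
  unfold opL
  rw [← Finset.sum_add_distrib]
  apply Finset.sum_congr rfl
  intro k _
  ring

/-- `opL` contracts the `L¹` norm. -/
theorem sum_abs_opL_le (m t : ℕ) (ψ : Equiv.Perm (Fin (2 * m)) → ℝ) :
    ∑ g, |opL m t ψ g| ≤ ∑ g, |ψ g| := by
  have h := sum_abs_mix_le (law m t) (law_nonneg m t)
    (fun k : Equiv.Perm (Fin (2 * m)) => Equiv.mulLeft k⁻¹) ψ
  rw [sum_law, one_mul] at h
  exact h

/-- Iterating an `L²` contraction of mean-zero functions: `j` blocks of `D` shuffles contract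
by `lam ^ j`. -/
theorem sum_sq_opL_iterate (m D : ℕ) (lam : ℝ) (hlam : 0 ≤ lam)
    (H : ∀ ψ : Equiv.Perm (Fin (2 * m)) → ℝ, ∑ g, ψ g = 0 →
      ∑ g, (opL m D ψ g) ^ 2 ≤ lam * ∑ g, (ψ g) ^ 2)
    (ψ : Equiv.Perm (Fin (2 * m)) → ℝ) (hψ : ∑ g, ψ g = 0) :
    ∀ j : ℕ, ∑ g, (opL m (j * D) ψ g) ^ 2 ≤ lam ^ j * ∑ g, (ψ g) ^ 2
  | 0 => by
      have h := sum_sq_opL_le m (0 * D) ψ
      simpa using h
  | j + 1 => by
      have e : (j + 1) * D = j * D + D := by ring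
      rw [e, opL_add]
      have h0 : ∑ g, opL m (j * D) ψ g = 0 := by rw [sum_opL]; exact hψ
      calc ∑ g, (opL m D (opL m (j * D) ψ) g) ^ 2
          ≤ lam * ∑ g, (opL m (j * D) ψ g) ^ 2 := H _ h0
        _ ≤ lam * (lam ^ j * ∑ g, (ψ g) ^ 2) :=
            mul_le_mul_of_nonneg_left (sum_sq_opL_iterate m D lam hlam H ψ hψ j) hlam
        _ = lam ^ (j + 1) * ∑ g, (ψ g) ^ 2 := by ring

/-- Cauchy–Schwarz on the group: `∑ |φ| ≤ sqrt (N * ∑ φ ^ 2)`. -/
theorem sum_abs_le_sqrt (m : ℕ) (φ : Equiv.Perm (Fin (2 * m)) → ℝ) :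
    ∑ g, |φ g| ≤ Real.sqrt (N m * ∑ g, (φ g) ^ 2) := by
  apply Real.le_sqrt_of_sq_le
  have hcs := Finset.sum_mul_sq_le_sq_mul_sq (Finset.univ : Finset (Equiv.Perm (Fin (2 * m))))
    (fun g => |φ g|) (fun _ => (1 : ℝ))
  simp only [mul_one, sq_abs, one_pow, Finset.sum_const, nsmul_eq_mul, card_perm] at hcs
  exact hcs.trans (le_of_eq (mul_comm _ _))

/-- Centering does not increase the sum of squares. -/
theorem sum_sq_center_le (m : ℕ) (ν : Equiv.Perm (Fin (2 * m)) → ℝ) :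
    ∑ g, (ν g - (∑ h, ν h) / N m) ^ 2 ≤ ∑ g, (ν g) ^ 2 := by
  have hN := (N_pos m).ne'
  have h : ∀ g : Equiv.Perm (Fin (2 * m)), (ν g - (∑ h, ν h) / N m) ^ 2 =
      (ν g) ^ 2 - (2 * ((∑ h, ν h) / N m)) * ν g + ((∑ h, ν h) / N m) ^ 2 := by
    intro g
    ring
  simp_rw [h]
  rw [Finset.sum_add_distrib, Finset.sum_sub_distrib, ← Finset.mul_sum, Finset.sum_const,
    nsmul_eq_mul, card_perm]
  have e : 2 * ((∑ h, ν h) / N m) * (∑ h, ν h) - N m * ((∑ h, ν h) / N m) ^ 2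
      = (∑ h, ν h) ^ 2 / N m := by
    field_simp
    ring
  have hpos : 0 ≤ (∑ h, ν h) ^ 2 / N m := div_nonneg (sq_nonneg _) (N_pos m).le
  linarith

/-- **Typical-density end game, one size.**  If the law after `s` shuffles is `ν₁ + ν₂` with
`ν₂ ≥ 0` (no sign condition on `ν₁`) and `D` shuffles contract mean-zero functions (squared
`L²` norm) by `lam`, then
`tvFromUniform m (s + J * D) ≤ ∑ ν₂ + (1/2) sqrt (lam ^ J * (N m * ∑ ν₁ ^ 2))`. -/
theorem tv_le_of_split (m D s J : ℕ) (lam : ℝ) (hlam : 0 ≤ lam)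
    (H : ∀ ψ : Equiv.Perm (Fin (2 * m)) → ℝ, ∑ g, ψ g = 0 →
      ∑ g, (opL m D ψ g) ^ 2 ≤ lam * ∑ g, (ψ g) ^ 2)
    (ν₁ ν₂ : Equiv.Perm (Fin (2 * m)) → ℝ) (h2 : ∀ g, 0 ≤ ν₂ g)
    (hsplit : ∀ g, law m s g = ν₁ g + ν₂ g) :
    tvFromUniform m (s + J * D) ≤
      ∑ g, ν₂ g + (1 / 2) * Real.sqrt (lam ^ J * (N m * ∑ g, (ν₁ g) ^ 2)) := by
  have hN := N_pos m
  set a : ℝ := ∑ g, ν₁ g with ha
  set b : ℝ := ∑ g, ν₂ g with hb
  have hb0 : 0 ≤ b := Finset.sum_nonneg (fun g _ => h2 g)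
  have hab : a + b = 1 := by
    rw [ha, hb, ← Finset.sum_add_distrib, ← sum_law m s]
    exact Finset.sum_congr rfl (fun g _ => (hsplit g).symm)
  let ψ₁ : Equiv.Perm (Fin (2 * m)) → ℝ := fun g => ν₁ g - a / N m
  let ψ₂ : Equiv.Perm (Fin (2 * m)) → ℝ := fun g => ν₂ g - b / N m
  have hsumc : ∀ c : ℝ, ∑ _g : Equiv.Perm (Fin (2 * m)), c / N m = c := by
    intro c
    rw [Finset.sum_const, nsmul_eq_mul, card_perm]
    field_simp
  have hψ₁ : ∑ g, ψ₁ g = 0 := by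
    show ∑ g, (ν₁ g - a / N m) = 0
    rw [Finset.sum_sub_distrib, hsumc a, ← ha, sub_self]
  have hdev : dev m s = fun g => ψ₁ g + ψ₂ g := by
    funext g
    show law m s g - 1 / N m = (ν₁ g - a / N m) + (ν₂ g - b / N m)
    rw [hsplit g, ← hab]
    ring
  -- the deviation after `s + J * D` shuffles
  have hdev2 : ∀ g, dev m (s + J * D) g = opL m (J * D) ψ₁ g + opL m (J * D) ψ₂ g := by
    intro g
    rw [dev_add_eq_opL, hdev, opL_add_fun]
  -- the `ν₂` part in `L¹`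
  have hpart2 : ∑ g, |opL m (J * D) ψ₂ g| ≤ 2 * b := by
    refine (sum_abs_opL_le m (J * D) ψ₂).trans ?_
    have h3 : ∀ g, |ψ₂ g| ≤ ν₂ g + b / N m := by
      intro g
      show |ν₂ g - b / N m| ≤ ν₂ g + b / N m
      have hbN : 0 ≤ b / N m := div_nonneg hb0 hN.le
      rw [abs_le]
      constructor <;> linarith [h2 g]
    refine (Finset.sum_le_sum (fun g _ => h3 g)).trans (le_of_eq ?_)
    rw [Finset.sum_add_distrib, hsumc b, ← hb]
    ring
  -- the `ν₁` part in `L²`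
  have hpart1 : ∑ g, |opL m (J * D) ψ₁ g| ≤
      Real.sqrt (lam ^ J * (N m * ∑ g, (ν₁ g) ^ 2)) := by
    refine (sum_abs_le_sqrt m _).trans ?_
    apply Real.sqrt_le_sqrt
    have hit := sum_sq_opL_iterate m D lam hlam H ψ₁ hψ₁ J
    have hc : ∑ g, (ψ₁ g) ^ 2 ≤ ∑ g, (ν₁ g) ^ 2 := sum_sq_center_le m ν₁
    calc N m * ∑ g, (opL m (J * D) ψ₁ g) ^ 2
        ≤ N m * (lam ^ J * ∑ g, (ψ₁ g) ^ 2) := mul_le_mul_of_nonneg_left hit hN.le
      _ ≤ N m * (lam ^ J * ∑ g, (ν₁ g) ^ 2) :=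
          mul_le_mul_of_nonneg_left
            (mul_le_mul_of_nonneg_left hc (pow_nonneg hlam J)) hN.le
      _ = lam ^ J * (N m * ∑ g, (ν₁ g) ^ 2) := by ring
  rw [tv_eq]
  have htri : ∑ g, |dev m (s + J * D) g| ≤
      ∑ g, |opL m (J * D) ψ₁ g| + ∑ g, |opL m (J * D) ψ₂ g| := by
    rw [← Finset.sum_add_distrib]
    apply Finset.sum_le_sum
    intro g _
    rw [hdev2 g]
    exact abs_add_le _ _
  have : ∑ g, |dev m (s + J * D) g| ≤
      Real.sqrt (lam ^ J * (N m * ∑ g, (ν₁ g) ^ 2)) + 2 * b := by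
    linarith
  linarith

/-- **Good-set form.**  If after `s` shuffles the law is at most `A / N` on a set `G` of
arrangements and the complement of `G` has probability at most `δ`, then
`tvFromUniform m (s + J * D) ≤ δ + (1/2) sqrt (lam ^ J * A)` (`0 ≤ A`). -/
theorem tv_le_of_good_set (m D s J : ℕ) (lam : ℝ) (hlam : 0 ≤ lam)
    (H : ∀ ψ : Equiv.Perm (Fin (2 * m)) → ℝ, ∑ g, ψ g = 0 →
      ∑ g, (opL m D ψ g) ^ 2 ≤ lam * ∑ g, (ψ g) ^ 2)
    (G : Set (Equiv.Perm (Fin (2 * m)))) (A δ : ℝ) (hA0 : 0 ≤ A)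
    (hG : ∀ g ∈ G, law m s g ≤ A / N m)
    (hδ : ∑ g, (open Classical in if g ∈ G then 0 else law m s g) ≤ δ) :
    tvFromUniform m (s + J * D) ≤ δ + (1 / 2) * Real.sqrt (lam ^ J * A) := by
  classical
  have hN := N_pos m
  let ν₁ : Equiv.Perm (Fin (2 * m)) → ℝ := fun g => if g ∈ G then law m s g else 0
  let ν₂ : Equiv.Perm (Fin (2 * m)) → ℝ := fun g => if g ∈ G then 0 else law m s g
  have h2 : ∀ g, 0 ≤ ν₂ g := by
    intro g
    show 0 ≤ (if g ∈ G then 0 else law m s g)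
    split
    · exact le_refl _
    · exact law_nonneg m s g
  have hsplit : ∀ g, law m s g = ν₁ g + ν₂ g := by
    intro g
    show law m s g = (if g ∈ G then law m s g else 0) + (if g ∈ G then 0 else law m s g)
    split <;> simp
  have hmain := tv_le_of_split m D s J lam hlam H ν₁ ν₂ h2 hsplit
  have hsq : N m * ∑ g, (ν₁ g) ^ 2 ≤ A := by
    have h3 : ∀ g, (ν₁ g) ^ 2 ≤ (A / N m) * law m s g := by
      intro g
      show (if g ∈ G then law m s g else 0) ^ 2 ≤ (A / N m) * law m s g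
      by_cases hg : g ∈ G
      · rw [if_pos hg, sq]
        exact mul_le_mul_of_nonneg_right (hG g hg) (law_nonneg m s g)
      · rw [if_neg hg]
        have hA : 0 ≤ A / N m := div_nonneg hA0 hN.le
        simpa using mul_nonneg hA (law_nonneg m s g)
    calc N m * ∑ g, (ν₁ g) ^ 2 ≤ N m * ∑ g, (A / N m) * law m s g :=
          mul_le_mul_of_nonneg_left (Finset.sum_le_sum (fun g _ => h3 g)) hN.le
      _ = A := by
          rw [← Finset.mul_sum, sum_law]
          field_simp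
  have hs : Real.sqrt (lam ^ J * (N m * ∑ g, (ν₁ g) ^ 2)) ≤ Real.sqrt (lam ^ J * A) :=
    Real.sqrt_le_sqrt (mul_le_mul_of_nonneg_left hsq (pow_nonneg hlam J))
  have hν₂ : ∑ g, ν₂ g ≤ δ := hδ
  linarith

end Crest.Agent.Helper74.Shuffle
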