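import Crest.Agent.Helper74.Shuffle.Typical
import Crest.Agent.Helper13.Shuffle.GapUncond

/-!
helper74: S0222 (Thorp shuffle, row 155) from a TYPICAL-DENSITY ("whp") form of SPREAD.

`Crest.Agent.Helper13.Gap.s0222_of_poly_chi2_uncond` needs a chi-square bound after `K0` passes.
Here the hypothesis is weaker (`STATE.md` (R-b), helper92 1(a)): the law after `K0` passes only
has to split as `ν₁ + ν₂`, `ν₂ ≥ 0`, with `N * ∑ ν₁ ^ 2 ≤ B d` and `∑ ν₂ ≤ δ d → 0`.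

* `tv_passes_le_of_split`  : the inequality at one size, with the unconditional GAP `lamSeq d`;
* `s0222_of_split`         : the limit of S0222 if `lamSeq d ^ J * B d → 0`, `K0 + J ≤ 1600`;
* `s0222_of_poly_split`    : the same with `B d = A * n ^ C`, `K0 + (4 C + 1) ≤ 1600`;
* `s0222_of_good_set`      : good-set form: `law ≤ A * n ^ C / N` on `G d`, `P(G dᶜ) ≤ δ d → 0`.

SPREAD ITSELF IS NOT PROVED; these theorems earn nothing alone.
-/

set_option autoImplicit false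

namespace Crest.Agent.Helper74.Shuffle

open Crest.ProbabilityR.Shuffle Crest.Agent.Helper3.Shuffle Crest.Agent.Helper13.Gap
open Filter

/-- One size: a split of the law after `K0` passes bounds the distance after `K0 + J` passes. -/
theorem tv_passes_le_of_split (d K0 J : ℕ)
    (ν₁ ν₂ : Equiv.Perm (Fin (2 * 2 ^ d)) → ℝ) (h2 : ∀ g, 0 ≤ ν₂ g)
    (hsplit : ∀ g, law (2 ^ d) (K0 * (d + 1)) g = ν₁ g + ν₂ g) :
    tvFromUniform (2 ^ d) ((K0 + J) * (d + 1)) ≤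
      ∑ g, ν₂ g + (1 / 2) * Real.sqrt (lamSeq d ^ J * (N (2 ^ d) * ∑ g, (ν₁ g) ^ 2)) := by
  have e : (K0 + J) * (d + 1) = K0 * (d + 1) + J * (d + 1) := by ring
  rw [e]
  exact tv_le_of_split (2 ^ d) (d + 1) (K0 * (d + 1)) J (lamSeq d) (lamSeq_nonneg d)
    (gap_uncond d).1 ν₁ ν₂ h2 hsplit

/-- END GAME, typical-density form: if eventually the law after `K0` passes is `ν₁ + ν₂` with
`ν₂ ≥ 0`, `N * ∑ ν₁ ^ 2 ≤ B d`, `∑ ν₂ ≤ δ d`, where `δ d → 0` and `lamSeq d ^ J * B d → 0`,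
`K0 + J ≤ 1600`, then the statement of S0222 holds. -/
theorem s0222_of_split (K0 J : ℕ) (hK : K0 + J ≤ 1600) (B δ : ℕ → ℝ)
    (hsplit : ∀ᶠ d in atTop, ∃ ν₁ ν₂ : Equiv.Perm (Fin (2 * 2 ^ d)) → ℝ,
      (∀ g, 0 ≤ ν₂ g) ∧ (∀ g, law (2 ^ d) (K0 * (d + 1)) g = ν₁ g + ν₂ g) ∧
      N (2 ^ d) * ∑ g, (ν₁ g) ^ 2 ≤ B d ∧ ∑ g, ν₂ g ≤ δ d)
    (hδ : Tendsto δ atTop (nhds 0))
    (hlim : Tendsto (fun d : ℕ => lamSeq d ^ J * B d) atTop (nhds 0)) :
    Tendsto (fun d : ℕ => tvFromUniform (2 ^ d) (1600 * (d + 1))) atTop (nhds 0) := by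
  apply tendsto_tv_1600_of_tv (K0 + J) hK
  have hsq : Tendsto (fun d : ℕ => Real.sqrt (lamSeq d ^ J * B d)) atTop (nhds 0) := by
    have h4 : Tendsto (fun d : ℕ => Real.sqrt (lamSeq d ^ J * B d)) atTop
        (nhds (Real.sqrt 0)) := (Real.continuous_sqrt.tendsto 0).comp hlim
    rw [Real.sqrt_zero] at h4
    exact h4
  have hup : Tendsto (fun d : ℕ => δ d + (1 / 2) * Real.sqrt (lamSeq d ^ J * B d)) atTop
      (nhds 0) := by
    have h5 := hδ.add (hsq.const_mul (1 / 2 : ℝ))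
    simpa using h5
  refine tendsto_of_tendsto_of_tendsto_of_le_of_le' tendsto_const_nhds hup
    (Eventually.of_forall (fun d => tv_nonneg _ _)) ?_
  filter_upwards [hsplit] with d hd
  obtain ⟨ν₁, ν₂, h2, hs, hB, hd2⟩ := hd
  refine (tv_passes_le_of_split d K0 J ν₁ ν₂ h2 hs).trans ?_
  have h6 : Real.sqrt (lamSeq d ^ J * (N (2 ^ d) * ∑ g, (ν₁ g) ^ 2)) ≤
      Real.sqrt (lamSeq d ^ J * B d) :=
    Real.sqrt_le_sqrt (mul_le_mul_of_nonneg_left hB (pow_nonneg (lamSeq_nonneg d) J))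
  linarith

/-- END GAME, typical-density polynomial form: `N * ∑ ν₁ ^ 2 ≤ A * n ^ C` (`n = 2 ^ (d + 1)`
cards), `∑ ν₂ ≤ δ d → 0`, `K0 + (4 * C + 1) ≤ 1600`. -/
theorem s0222_of_poly_split (K0 C : ℕ) (hK : K0 + (4 * C + 1) ≤ 1600) (A : ℝ) (δ : ℕ → ℝ)
    (hsplit : ∀ᶠ d in atTop, ∃ ν₁ ν₂ : Equiv.Perm (Fin (2 * 2 ^ d)) → ℝ,
      (∀ g, 0 ≤ ν₂ g) ∧ (∀ g, law (2 ^ d) (K0 * (d + 1)) g = ν₁ g + ν₂ g) ∧
      N (2 ^ d) * ∑ g, (ν₁ g) ^ 2 ≤ A * ((2 : ℝ) ^ (d + 1)) ^ C ∧ ∑ g, ν₂ g ≤ δ d)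
    (hδ : Tendsto δ atTop (nhds 0)) :
    Tendsto (fun d : ℕ => tvFromUniform (2 ^ d) (1600 * (d + 1))) atTop (nhds 0) := by
  have hA0 : ∀ᶠ d in atTop, (0 : ℝ) ≤ A * ((2 : ℝ) ^ (d + 1)) ^ C := by
    filter_upwards [hsplit] with d hd
    obtain ⟨ν₁, ν₂, _, _, hB, _⟩ := hd
    exact (mul_nonneg (N_pos (2 ^ d)).le (Finset.sum_nonneg (fun g _ => sq_nonneg _))).trans hB
  exact s0222_of_split K0 (4 * C + 1) hK (fun d => A * ((2 : ℝ) ^ (d + 1)) ^ C) δ hsplit hδ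
    (tendsto_lamSeq_pow_mul_poly C A hA0)

/-- END GAME, good-set form: if eventually there is a set `G` of arrangements on which the law
after `K0` passes is at most `A * n ^ C / N` (`N = n!`, `n = 2 ^ (d + 1)`, `0 ≤ A`) and whose
complement has probability at most `δ d → 0`, and `K0 + (4 * C + 1) ≤ 1600`, then the statement
of S0222 holds. -/
theorem s0222_of_good_set (K0 C : ℕ) (hK : K0 + (4 * C + 1) ≤ 1600) (A : ℝ) (hA : 0 ≤ A)
    (δ : ℕ → ℝ)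
    (hG : ∀ᶠ d in atTop, ∃ G : Set (Equiv.Perm (Fin (2 * 2 ^ d))),
      (∀ g ∈ G, law (2 ^ d) (K0 * (d + 1)) g ≤ A * ((2 : ℝ) ^ (d + 1)) ^ C / N (2 ^ d)) ∧
      ∑ g, (open Classical in if g ∈ G then 0 else law (2 ^ d) (K0 * (d + 1)) g) ≤ δ d)
    (hδ : Tendsto δ atTop (nhds 0)) :
    Tendsto (fun d : ℕ => tvFromUniform (2 ^ d) (1600 * (d + 1))) atTop (nhds 0) := by
  classical
  apply s0222_of_poly_split K0 C hK A δ ?_ hδ
  filter_upwards [hG] with d hd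
  obtain ⟨G, hle, hmass⟩ := hd
  have hN := N_pos (2 ^ d)
  have hA' : 0 ≤ A * ((2 : ℝ) ^ (d + 1)) ^ C := mul_nonneg hA (by positivity)
  refine ⟨fun g => if g ∈ G then law (2 ^ d) (K0 * (d + 1)) g else 0,
    fun g => if g ∈ G then 0 else law (2 ^ d) (K0 * (d + 1)) g, ?_, ?_, ?_, hmass⟩
  · intro g
    show 0 ≤ (if g ∈ G then 0 else law (2 ^ d) (K0 * (d + 1)) g)
    split
    · exact le_refl _
    · exact law_nonneg _ _ g
  · intro g
    show law (2 ^ d) (K0 * (d + 1)) g =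
      (if g ∈ G then law (2 ^ d) (K0 * (d + 1)) g else 0) +
        (if g ∈ G then 0 else law (2 ^ d) (K0 * (d + 1)) g)
    split <;> simp
  · have h3 : ∀ g, (if g ∈ G then law (2 ^ d) (K0 * (d + 1)) g else 0) ^ 2 ≤
        (A * ((2 : ℝ) ^ (d + 1)) ^ C / N (2 ^ d)) * law (2 ^ d) (K0 * (d + 1)) g := by
      intro g
      by_cases hg : g ∈ G
      · rw [if_pos hg, sq]
        exact mul_le_mul_of_nonneg_right (hle g hg) (law_nonneg _ _ g)
      · rw [if_neg hg]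
        simpa using mul_nonneg (div_nonneg hA' hN.le) (law_nonneg (2 ^ d) (K0 * (d + 1)) g)
    calc N (2 ^ d) * ∑ g, (if g ∈ G then law (2 ^ d) (K0 * (d + 1)) g else 0) ^ 2
        ≤ N (2 ^ d) * ∑ g, (A * ((2 : ℝ) ^ (d + 1)) ^ C / N (2 ^ d)) *
            law (2 ^ d) (K0 * (d + 1)) g :=
          mul_le_mul_of_nonneg_left (Finset.sum_le_sum (fun g _ => h3 g)) hN.le
      _ = A * ((2 : ℝ) ^ (d + 1)) ^ C := by
          rw [← Finset.mul_sum, sum_law]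
          field_simp

end Crest.Agent.Helper74.Shuffle
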