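import Crest.Agent.Helper74.Shuffle.TypicalEnd

/-!
helper74: S0222 (Thorp shuffle, row 155) from an ENTROPY or a RENYI form of SPREAD
(`STATE.md` (R-c), (R-d)); both are reduced to the good-set form by Markov's inequality.

* `bad_mass_le_of_kl`  : `P(N * law > T) ≤ (KL + 1) / log T` for `1 < T`, where
  `KL = ∑ law * log (N * law)` is the relative entropy of the law with respect to uniform;
* `s0222_of_kl`        : if `KL(law after K0 passes ‖ uniform) ≤ κ d` with `κ d / (d + 1) → 0`
  (that is `KL = o(log n)`) and `K0 + 5 ≤ 1600`, then the statement of S0222 holds;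
* `bad_mass_le_of_moment` : `P(N * law > T) ≤ (∑ law * φ (N * law)) / φ T` for monotone `φ ≥ 0`;
* `s0222_of_root_moment` : if `E_law[(N * law) ^ (1 / r)] ≤ A * n ^ C` (a Renyi bound of order
  `1 + 1/r`), `K0 + (4 * (r * (C + 1)) + 1) ≤ 1600`, then the statement of S0222 holds.

SPREAD ITSELF IS NOT PROVED; these theorems earn nothing alone.
-/

set_option autoImplicit false

namespace Crest.Agent.Helper74.Shuffle

open Crest.ProbabilityR.Shuffle Crest.Agent.Helper3.Shuffle Crest.Agent.Helper13.Gap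
open Filter

/-- Markov's inequality for the information density: the probability that `N * law > T` is at
most `(KL + 1) / log T`. -/
theorem bad_mass_le_of_kl (m s : ℕ) (T : ℝ) (hT : 1 < T) :
    ∑ g, (open Classical in if g ∈ {g | N m * law m s g ≤ T} then 0 else law m s g) ≤
      ((∑ g, law m s g * Real.log (N m * law m s g)) + 1) / Real.log T := by
  classical
  have hN := N_pos m
  have hlogT : 0 < Real.log T := Real.log_pos hT
  rw [le_div_iff₀ hlogT]
  -- pointwise lower bound for the entropy integrand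
  have hpt : ∀ g : Equiv.Perm (Fin (2 * m)),
      (if g ∈ {g | N m * law m s g ≤ T} then 0 else law m s g) * Real.log T - 1 / N m ≤
        law m s g * Real.log (N m * law m s g) := by
    intro g
    have hl := law_nonneg m s g
    by_cases hg : N m * law m s g ≤ T
    · have hmem : g ∈ {g | N m * law m s g ≤ T} := hg
      rw [if_pos hmem, zero_mul, zero_sub]
      rcases hl.eq_or_lt with h0 | hpos
      · rw [← h0, zero_mul]
        have : 0 ≤ 1 / N m := by positivity
        linarith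
      · have hx : 0 < N m * law m s g := mul_pos hN hpos
        have h1 := Real.one_sub_inv_le_log_of_pos hx
        have h2 : law m s g * (1 - (N m * law m s g)⁻¹) ≤
            law m s g * Real.log (N m * law m s g) := mul_le_mul_of_nonneg_left h1 hl
        have h3 : law m s g * (1 - (N m * law m s g)⁻¹) = law m s g - 1 / N m := by
          field_simp
        linarith
    · have hmem : g ∉ {g | N m * law m s g ≤ T} := hg
      rw [if_neg hmem]
      rw [not_le] at hg
      have h1 : Real.log T ≤ Real.log (N m * law m s g) :=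
        Real.log_le_log (by linarith) hg.le
      have h2 : law m s g * Real.log T ≤ law m s g * Real.log (N m * law m s g) :=
        mul_le_mul_of_nonneg_left h1 hl
      have : 0 ≤ 1 / N m := by positivity
      linarith
  have hsum := Finset.sum_le_sum (fun g (_ : g ∈ (Finset.univ : Finset (Equiv.Perm (Fin (2 * m))))) => hpt g)
  rw [Finset.sum_sub_distrib, ← Finset.sum_mul, sum_const_inv] at hsum
  linarith

open Classical in
/-- END GAME, entropy form: if the relative entropy of the law after `K0` passes with respect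
to the uniform law is `o(log n)` (`κ d / (d + 1) → 0`), `K0 + 5 ≤ 1600`, then the statement of
S0222 holds. -/
theorem s0222_of_kl (K0 : ℕ) (hK : K0 + 5 ≤ 1600) (κ : ℕ → ℝ)
    (hκ : Tendsto (fun d : ℕ => κ d / ((d : ℝ) + 1)) atTop (nhds 0))
    (hkl : ∀ᶠ d in atTop,
      ∑ g, law (2 ^ d) (K0 * (d + 1)) g *
        Real.log (N (2 ^ d) * law (2 ^ d) (K0 * (d + 1)) g) ≤ κ d) :
    Tendsto (fun d : ℕ => tvFromUniform (2 ^ d) (1600 * (d + 1))) atTop (nhds 0) := by
  have hlog2 : 0 < Real.log 2 := Real.log_pos (by norm_num)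
  -- the bound on the bad mass
  let δ : ℕ → ℝ := fun d => (κ d + 1) / (((d : ℝ) + 1) * Real.log 2)
  have hδ : Tendsto δ atTop (nhds 0) := by
    have h1 : Tendsto (fun d : ℕ => (1 : ℝ) / ((d : ℝ) + 1)) atTop (nhds 0) :=
      tendsto_one_div_add_atTop_nhds_zero_nat
    have h2 := (hκ.add h1).div_const (Real.log 2)
    simp only [add_zero, zero_div] at h2
    refine h2.congr (fun d => ?_)
    show (κ d / ((d : ℝ) + 1) + 1 / ((d : ℝ) + 1)) / Real.log 2 =
      (κ d + 1) / (((d : ℝ) + 1) * Real.log 2)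
    have hd : (0 : ℝ) < (d : ℝ) + 1 := by positivity
    field_simp
  apply s0222_of_good_set K0 1 (by omega) 1 (by norm_num) δ ?_ hδ
  filter_upwards [hkl] with d hd
  have hT : (1 : ℝ) < (2 : ℝ) ^ (d + 1) := one_lt_pow₀ (by norm_num) (by omega)
  refine ⟨{g | N (2 ^ d) * law (2 ^ d) (K0 * (d + 1)) g ≤ (2 : ℝ) ^ (d + 1)}, ?_, ?_⟩
  · intro g hg
    have hg' : N (2 ^ d) * law (2 ^ d) (K0 * (d + 1)) g ≤ (2 : ℝ) ^ (d + 1) := hg
    rw [one_mul, pow_one, le_div_iff₀ (N_pos (2 ^ d))]
    linarith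
  · refine (bad_mass_le_of_kl (2 ^ d) (K0 * (d + 1)) ((2 : ℝ) ^ (d + 1)) hT).trans ?_
    have hlogT : Real.log ((2 : ℝ) ^ (d + 1)) = ((d : ℝ) + 1) * Real.log 2 := by
      rw [Real.log_pow]
      push_cast
      ring
    rw [hlogT]
    have hpos : 0 < ((d : ℝ) + 1) * Real.log 2 := by positivity
    exact div_le_div_of_nonneg_right (by linarith) hpos.le

/-- Markov's inequality for a monotone nonnegative function of the density. -/
theorem bad_mass_le_of_moment (m s : ℕ) (T : ℝ) (φ : ℝ → ℝ) (hφ0 : ∀ x, 0 ≤ x → 0 ≤ φ x)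
    (hφ : ∀ x, T ≤ x → φ T ≤ φ x) (hφT : 0 < φ T) :
    ∑ g, (open Classical in if g ∈ {g | N m * law m s g ≤ T} then 0 else law m s g) ≤
      (∑ g, law m s g * φ (N m * law m s g)) / φ T := by
  classical
  rw [le_div_iff₀ hφT, Finset.sum_mul]
  apply Finset.sum_le_sum
  intro g _
  have hl := law_nonneg m s g
  by_cases hg : N m * law m s g ≤ T
  · have hmem : g ∈ {g | N m * law m s g ≤ T} := hg
    rw [if_pos hmem, zero_mul]
    exact mul_nonneg hl (hφ0 _ (mul_nonneg (N_pos m).le hl))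
  · have hmem : g ∉ {g | N m * law m s g ≤ T} := hg
    rw [if_neg hmem]
    rw [not_le] at hg
    exact mul_le_mul_of_nonneg_left (hφ _ hg.le) hl

open Classical in
/-- END GAME, Renyi form of order `1 + 1/r` (`r ≥ 1` a natural number): if eventually
`E_law[(N * law) ^ (1 / r)] ≤ A * n ^ C` (`n = 2 ^ (d + 1)` cards) after `K0` passes and
`K0 + (4 * (r * (C + 1)) + 1) ≤ 1600`, then the statement of S0222 holds. -/
theorem s0222_of_root_moment (K0 C r : ℕ) (hr : 1 ≤ r)
    (hK : K0 + (4 * (r * (C + 1)) + 1) ≤ 1600) (A : ℝ)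
    (hmom : ∀ᶠ d in atTop,
      ∑ g, law (2 ^ d) (K0 * (d + 1)) g *
        (N (2 ^ d) * law (2 ^ d) (K0 * (d + 1)) g) ^ ((1 : ℝ) / (r : ℝ)) ≤
          A * ((2 : ℝ) ^ (d + 1)) ^ C) :
    Tendsto (fun d : ℕ => tvFromUniform (2 ^ d) (1600 * (d + 1))) atTop (nhds 0) := by
  have hr0 : (0 : ℝ) < (r : ℝ) := by exact_mod_cast hr
  have hinv : (0 : ℝ) < 1 / (r : ℝ) := by positivity
  let δ : ℕ → ℝ := fun d => |A| * (1 / 2 : ℝ) ^ (d + 1)
  have hδ : Tendsto δ atTop (nhds 0) := by
    have h1 : Tendsto (fun d : ℕ => (1 / 2 : ℝ) ^ (d + 1)) atTop (nhds 0) :=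
      (tendsto_pow_atTop_nhds_zero_of_lt_one (by norm_num) (by norm_num)).comp
        (tendsto_add_atTop_nat 1)
    have h2 := h1.const_mul |A|
    rw [mul_zero] at h2
    exact h2
  apply s0222_of_good_set K0 (r * (C + 1)) hK 1 (by norm_num) δ ?_ hδ
  filter_upwards [hmom] with d hd
  set n : ℝ := (2 : ℝ) ^ (d + 1) with hn
  have hn1 : 1 ≤ n := one_le_pow₀ (by norm_num)
  have hn0 : 0 < n := by positivity
  set T : ℝ := n ^ (r * (C + 1)) with hTdef
  have hT0 : 0 < T := by positivity
  refine ⟨{g | N (2 ^ d) * law (2 ^ d) (K0 * (d + 1)) g ≤ T}, ?_, ?_⟩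
  · intro g hg
    have hg' : N (2 ^ d) * law (2 ^ d) (K0 * (d + 1)) g ≤ T := hg
    rw [one_mul, le_div_iff₀ (N_pos (2 ^ d))]
    linarith
  · -- `φ x = x ^ (1/r)` (real power; `0` for negative arguments does not matter: monotone on `[T, ∞)`)
    have hφT : T ^ ((1 : ℝ) / (r : ℝ)) = n ^ (C + 1) := by
      rw [hTdef, pow_mul', ← Real.rpow_natCast (n ^ (C + 1)) r, ← Real.rpow_mul (by positivity)]
      rw [mul_one_div_cancel hr0.ne', Real.rpow_one]
    have hmark := bad_mass_le_of_moment (2 ^ d) (K0 * (d + 1)) T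
      (fun x => x ^ ((1 : ℝ) / (r : ℝ)))
      (fun x hx => Real.rpow_nonneg hx _)
      (fun x hx => Real.rpow_le_rpow hT0.le hx hinv.le)
      (by rw [hφT]; positivity)
    refine hmark.trans ?_
    show (∑ g, law (2 ^ d) (K0 * (d + 1)) g *
        (N (2 ^ d) * law (2 ^ d) (K0 * (d + 1)) g) ^ ((1 : ℝ) / (r : ℝ))) /
          T ^ ((1 : ℝ) / (r : ℝ)) ≤ |A| * (1 / 2 : ℝ) ^ (d + 1)
    rw [hφT, div_le_iff₀ (by positivity)]
    refine hd.trans ?_
    have hA : A * n ^ C ≤ |A| * n ^ C := mul_le_mul_of_nonneg_right (le_abs_self A) (by positivity)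
    refine hA.trans (le_of_eq ?_)
    have h12 : (1 / 2 : ℝ) ^ (d + 1) * n = 1 := by
      rw [hn, ← mul_pow]
      norm_num
    rw [pow_succ]
    calc |A| * n ^ C = |A| * ((1 / 2 : ℝ) ^ (d + 1) * n) * n ^ C := by rw [h12]; ring
      _ = |A| * (1 / 2 : ℝ) ^ (d + 1) * (n ^ C * n) := by ring

end Crest.Agent.Helper74.Shuffle
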